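import Mathlib
import Vale.Agent.Lib.P137.helper41.Defs

namespace Vale.Agent.Lib.P137.H14

open Vale.Agent.Lib.P137 MeasureTheory Metric
open scoped ENNReal

/-- Scaling of the Lebesgue integral on `E d` by a positive factor. -/
theorem lintegral_comp_smul_pos {d : ℕ} (g : E d → ℝ≥0∞) {c : ℝ} (hc : 0 < c) :
    ∫⁻ z, g (c • z) = ENNReal.ofReal ((c ^ d)⁻¹) * ∫⁻ y, g y := by
  have hc0 : c ≠ 0 := hc.ne'
  have hmap : Measure.map (fun z : E d => c • z) (volume : Measure (E d)) =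
      ENNReal.ofReal ((c ^ d)⁻¹) • (volume : Measure (E d)) := by
    have h := Measure.map_addHaar_smul (volume : Measure (E d)) hc0
    rw [h, finrank_euclideanSpace_fin, abs_of_pos (inv_pos.mpr (pow_pos hc d))]
  have he : ∫⁻ z, g (c • z) = ∫⁻ y, g y ∂(Measure.map (fun z : E d => c • z) volume) := by
    have := lintegral_map_equiv g ((Homeomorph.smulOfNeZero c hc0).toMeasurableEquiv :
      E d ≃ᵐ E d) (μ := (volume : Measure (E d)))
    simpa using this.symm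
  rw [he, hmap, lintegral_smul_measure]
  rfl

/-- Scaling of the weighted integral with weight `1 / ‖x‖`. -/
theorem lintegral_scale_div_norm {d : ℕ} (G : ℝ → ℝ≥0∞) {c : ℝ} (hc : 0 < c) :
    ∫⁻ x : E d, G (c * ‖x‖) / ENNReal.ofReal ‖x‖ =
      ENNReal.ofReal (c * (c ^ d)⁻¹) * ∫⁻ y : E d, G ‖y‖ / ENNReal.ofReal ‖y‖ := by
  have hpt : ∀ x : E d, G (c * ‖x‖) / ENNReal.ofReal ‖x‖ =
      ENNReal.ofReal c *
        (fun y : E d => G ‖y‖ / ENNReal.ofReal ‖y‖) (c • x) := by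
    intro x
    have hcpos : ENNReal.ofReal c ≠ 0 := by
      simp [hc]
    have hctop : ENNReal.ofReal c ≠ ⊤ := ENNReal.ofReal_ne_top
    show G (c * ‖x‖) / ENNReal.ofReal ‖x‖ =
      ENNReal.ofReal c * (G ‖c • x‖ / ENNReal.ofReal ‖c • x‖)
    rw [norm_smul, Real.norm_of_nonneg hc.le, ENNReal.ofReal_mul hc.le]
    rw [div_eq_mul_inv, div_eq_mul_inv,
      ENNReal.mul_inv (Or.inl hcpos) (Or.inl hctop)]
    calc G (c * ‖x‖) * (ENNReal.ofReal ‖x‖)⁻¹
        = (ENNReal.ofReal c * (ENNReal.ofReal c)⁻¹) *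
            (G (c * ‖x‖) * (ENNReal.ofReal ‖x‖)⁻¹) := by
          rw [ENNReal.mul_inv_cancel hcpos hctop, one_mul]
      _ = ENNReal.ofReal c *
            (G (c * ‖x‖) * ((ENNReal.ofReal c)⁻¹ * (ENNReal.ofReal ‖x‖)⁻¹)) := by
          ring
  simp_rw [hpt]
  rw [lintegral_const_mul' _ _ ENNReal.ofReal_ne_top,
    lintegral_comp_smul_pos (fun y : E d => G ‖y‖ / ENNReal.ofReal ‖y‖) hc,
    ← mul_assoc, ← ENNReal.ofReal_mul hc.le]

end Vale.Agent.Lib.P137.H14
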